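/-
R169/Blueprint: plan of the proof of row 169 (S0256, S0257).  Owner: helper14.  No code.

## The ring
`S` = del Pezzo surface of degree 5 with its ten lines `C 0, …, C 9` (blow-up of the plane in
`(0,0)`, `(1,1)` and the two points at infinity of the axes; affine coordinates `a, b`; lines
`a, b, a-1, b-1, a-b`, the four exceptional curves, the line at infinity).
`X → S` = Hirzebruch's `(ℤ/7)^5` Kummer cover branched along the ten lines; function field
`K1 = ℂ(a,b)(a^(1/7), …, (a-b)^(1/7))`.  `L` = the class with `7 L = π^*(-K_S)`; `K_X = 5 L`.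
`R = ⊕ H⁰(X, t L)`, `V t = H1 (t • ζ) ⊆ K1`, `z = τ`, `u = yy 0 τ^14`, `w = yy 1 τ^14` are parameters.

## Language (Defs)
Everything is done with `ℤ^10`-graded modules over the "Cox ring" `⊕_α CC k α`, `CC k α ⊆ k(a,b)`
(sections of the `ℚ`-divisor `∑ (α i / 7) C i`), embedded in a `k(a,b)`-vector space `V`:
`G : Fam k V = Dg → Submodule k V`.  A finitely generated one (`IsLat`) is an equivariant torsion-free
sheaf on `X`; `hf G α` (sum over the `7^5` sectors) is `h⁰` on `X`, and `HP G r c s` is Riemann-Roch
`2 hf = 343 (r chi + c.(2 D - 5 L)) + s`, `c = c₁`, `s = 2 ch₂`; `mm = c.L`.  The Cox ring is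
factorial in the graded sense (`val`, `mem_CC`, `exists_isPE`), graded primes are principal, points,
or irrelevant (`IsPr.cases`, `chart_or_irr`); Riemann-Roch for all lattices by dévissage (`RR`).

## Step 1 (Pos, Core)
A maximal Cohen-Macaulay module `M` over a local ring `S` between `R` and its completion embeds in
`S^r ⊆ K1[[τ]]^r`; twisting by the characters gives a `Datum` (one expansion per sector).
The leading coefficients form a lattice `D.lat`, with `dim lead t = length M / (Φ (t+1) + z M)`.
`u, w` is a regular sequence on `M / z M`; Koszul estimates show that the Hilbert polynomial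
of `D.lat` along the ray is `≥ 0` at ALL integers `t` (`Datum.pos`), whence
`Θ = 5 ρ s - 343 m² ≥ 3430 ρ²` (`theta_ge`).  Elementary modifications (`Datum.modif`) of a datum
with minimal `Θ` show that all slopes are within `5/2` of `m / ρ`; the Bogomolov inequality
(`bogomolov_unstable`) gives `Θ ≤ 343 * 25 / 4 ρ²`.  Contradiction (`core`).

## Step 2: Bogomolov inequality (Gieseker's proof)
`Transfer`: a semistable lattice over `ℂ` reduces to a semistable lattice in characteristic `p ≫ 0`
with the same invariants (`Red`, `Nss`, `Det`).  `Conn`: the Frobenius pull-back `W` has slopes within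
a bound independent of `p` (canonical connection).  `RR`: `W` has invariants `p c`, `p² s`.
`Dual`, `H0`, `H2`, `Gies`: for a twist `D ≈ -p c / r`, `χ(W(D)) ≤ h⁰ + h² = O(p)`, while
`2 r χ = p² (r s - 343 c²) + O(1)`.

## Step 3: rings
`Kummer`: the filtration `fil : Fil ℂ K1`.  `RingH`: the complete ring `Rh`.  `RingP`: the graded ring
`Rp` and its localisation.  `Dim`: dimension three.  `CM`: depth three modules (any system of
parameters is regular; torsion-free).  `MkDatum`: no module of depth three.  `Final`.

## Import graph
Defs ← Num ← Val ← Span ← CC ← Fam;  Tab ← Val;  HPC ← Fam, Tab;  Noeth ← Fam;  Irr ← Noeth, Tab;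
PBasis ← Irr;  Point ← PBasis, HPC;  RR ← Point;  Det, Conn, Pos ← RR;  Dual ← Span;
Basis ← Irr, HPC;  H0 ← RR, Basis;  H2 ← H0, Dual;  Gies ← H2, Conn;  Nss ← Num;  Red ← RR, Nss;
Transfer ← Red, Det;  Bogo ← Transfer, Gies;  Core ← Pos, Bogo;  Kummer ← Basis;
FilB ← Defs;  RingP, RingH, Dim ← FilB;  CM;  MkDatum ← Core, Kummer, CM, Dim;  Final.

Large files are split in a chain `XA ← XB ← … ← X`.

## Rules for helpers
Fill the sorries, keep the statements; you may use the sorried lemmas of imported files; put
auxiliary lemmas in the same file (above) or in `R169/<File>Aux*.lean`.  Never `simp [dv]` or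
`simp [cl]` (very slow): use `dv_0 … dv_9`, `cl_0 … cl_4`, `dg_forall`, `ex_forall`, `omega`,
`decide`.  If a statement is false, message helper14 at once (with the fix if you see it).
-/
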